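import Mathlib

/-!
P166, full formula: the commutative algebra of hierarchical matrices in the limit of zero replicas.
`K + 1` levels `0, …, K`, exponents `m` with `m 0 = 0`, `m (K + 1) = 1`, weights
`m (l + 1) - m l` of the levels.
-/

open Finset

namespace Vale.Agent.P166.F

/-- Admissible exponents (the same conditions as in `Lv.Sy.Reg`). -/
structure Expo (K : ℕ) (m : ℕ → ℝ) : Prop where
  m0 : m 0 = 0
  mK : m (K + 1) = 1
  mono : ∀ l ≤ K, m l ≤ m (l + 1)
  pos : 0 < m 1

/-- A hierarchical matrix: the diagonal entry `d` and the entries `e l` of the levels. -/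
structure Hm where
  d : ℝ
  e : ℕ → ℝ

namespace Hm

/-- The product (the number of replicas is zero). -/
noncomputable def mul (K : ℕ) (m : ℕ → ℝ) (M N : Hm) : Hm where
  d := M.d * N.d - ∑ j ∈ range (K + 1), (m (j + 1) - m j) * (M.e j * N.e j)
  e := fun l => M.d * N.e l + M.e l * N.d - (2 * m (l + 1) - m l) * (M.e l * N.e l)
    - ∑ j ∈ Ico (l + 1) (K + 1), (m (j + 1) - m j) * (M.e j * N.e l + M.e l * N.e j)
    - ∑ j ∈ range l, (m (j + 1) - m j) * (M.e j * N.e j)

/-- The eigenvalue at the level `l`. -/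
noncomputable def ev (K : ℕ) (m : ℕ → ℝ) (M : Hm) (l : ℕ) : ℝ :=
  M.d - m (l + 1) * M.e l - ∑ j ∈ Ico (l + 1) (K + 1), (m (j + 1) - m j) * M.e j

/-- The norm `|d| + ∑ p_l |e_l|`. -/
noncomputable def nrm (K : ℕ) (m : ℕ → ℝ) (M : Hm) : ℝ :=
  |M.d| + ∑ l ∈ range (K + 1), (m (l + 1) - m l) * |M.e l|

/-- The matrix with the eigenvalues `f l` and the entry `0` at the level `0`. -/
noncomputable def ofEv (K : ℕ) (m : ℕ → ℝ) (f : ℕ → ℝ) : Hm where
  d := f K + ∑ i ∈ range K, (f i - f (i + 1)) / m (i + 1)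
  e := fun l => ∑ i ∈ range l, (f i - f (i + 1)) / m (i + 1)

/-- Linear combinations. -/
noncomputable def lin {B : Type} [Fintype B] (a : B → ℝ) (R : B → Hm) : Hm where
  d := ∑ b, a b * (R b).d
  e := fun l => ∑ b, a b * (R b).e l

/-- Differences. -/
noncomputable def sub (M N : Hm) : Hm where
  d := M.d - N.d
  e := fun l => M.e l - N.e l

/-- The loop matrix `N - M + c M N`. -/
noncomputable def loop (K : ℕ) (m : ℕ → ℝ) (c : ℝ) (M N : Hm) : Hm where
  d := N.d - M.d + c * (mul K m M N).d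
  e := fun l => N.e l - M.e l + c * (mul K m M N).e l

end Hm

/-- The trace `tr f(Q)` of a function of the matrix `Q` with the eigenvalues `x l`
(the diagonal entry of `f(Q)`, when the entry of level `0` vanishes). -/
noncomputable def trf (K : ℕ) (m : ℕ → ℝ) (f : ℝ → ℝ) (x : ℕ → ℝ) : ℝ :=
  f (x K) + ∑ i ∈ range K, (f (x i) - f (x (i + 1))) / m (i + 1)

/-- The eigenvalue at the level `l` of the overlap path `q` (self-overlap one). -/
noncomputable def eq' (K : ℕ) (m q : ℕ → ℝ) (l : ℕ) : ℝ :=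
  1 - m (l + 1) * q l - ∑ j ∈ Ico (l + 1) (K + 1), (m (j + 1) - m j) * q j

/-- The (normalized) overlaps of the blocks `b` of weights `α b`: nondecreasing entries, vanishing
at the level `0`, total self-overlap one. -/
structure Blocks (K : ℕ) {B : Type} [Fintype B] (α : B → ℝ) (R : B → Hm) : Prop where
  zero : ∀ b, (R b).e 0 = 0
  mono : ∀ b, ∀ l < K, (R b).e l ≤ (R b).e (l + 1)
  le : ∀ b, (R b).e K ≤ (R b).d
  one : ∑ b, α b * (R b).d = 1
  lt : ∑ b, α b * (R b).e K < 1

/-- `ζ x` is the solution `ζ > max a` of `∑ α_b / (ζ - a_b) = β x`. -/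
structure Zeta {B : Type} [Fintype B] (β : ℝ) (a α : B → ℝ) (ζ : ℝ → ℝ) : Prop where
  lt : ∀ x, 0 < x → ∀ b, a b < ζ x
  eq : ∀ x, 0 < x → ∑ b, α b / (ζ x - a b) = β * x

end Vale.Agent.P166.F
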