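import Vale.Agent.P166.F.Alg1

/-! Task F-S: traces as integrals and the Schur inequality. -/

open Finset MeasureTheory

namespace Vale.Agent.P166.F

/-- `Λ_q(s) = 1 - s - ∑ p_l (q_l - s)^+` (the integral from `s` to `1` of the distribution
function of the path). -/
noncomputable def Lam (K : ℕ) (m q : ℕ → ℝ) (s : ℝ) : ℝ :=
  1 - s - ∑ l ∈ range (K + 1), (m (l + 1) - m l) * max (q l - s) 0

/-- An overlap path. -/
structure OPath (K : ℕ) (q : ℕ → ℝ) : Prop where
  nonneg : 0 ≤ q 0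
  mono : ∀ l < K, q l ≤ q (l + 1)
  le : q K ≤ 1

theorem fs_mpos {K : ℕ} {m : ℕ → ℝ} (hm : Expo K m) : ∀ l ≤ K, 0 < m (l + 1) := by
  intro l
  induction l with
  | zero => intro _; exact hm.pos
  | succ l ih => intro hl; exact (ih (by omega)).trans_le (hm.mono (l + 1) hl)

theorem fs_mono {K : ℕ} {q : ℕ → ℝ} (hq : OPath K q) : ∀ i j, i ≤ j → j ≤ K → q i ≤ q j := by
  intro i j hij
  induction j, hij using Nat.le_induction with
  | base => intro _; exact le_rfl
  | succ j _ ih => intro hj; exact (ih (by omega)).trans (hq.mono j (by omega))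

theorem fs_nonneg {K : ℕ} {q : ℕ → ℝ} (hq : OPath K q) {l : ℕ} (hl : l ≤ K) : 0 ≤ q l :=
  hq.nonneg.trans (fs_mono hq 0 l (Nat.zero_le _) hl)

theorem fs_le_one {K : ℕ} {q : ℕ → ℝ} (hq : OPath K q) {l : ℕ} (hl : l ≤ K) : q l ≤ 1 :=
  (fs_mono hq l K hl le_rfl).trans hq.le

theorem fs_tele (m : ℕ → ℝ) {a b : ℕ} (h : a ≤ b) :
    ∑ l ∈ Ico a b, (m (l + 1) - m l) = m b - m a := by
  rw [Finset.sum_Ico_eq_sub _ h, Finset.sum_range_sub, Finset.sum_range_sub]
  ring

/-- one piece of the integral -/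
theorem fs_piece {f f' : ℝ → ℝ} (hf : ContinuousOn f (Set.Icc 0 1))
    (hd : ∀ x ∈ Set.Ioo (0 : ℝ) 1, HasDerivAt f (f' x) x)
    (hi : IntegrableOn f' (Set.Ioo 0 1)) {a b X c : ℝ} (hab : a ≤ b) (hc : 0 < c) (hX : X ≤ 1)
    (hX' : 0 ≤ X - c * (b - a)) :
    IntervalIntegrable (fun s => f' (X - c * (s - a))) volume a b ∧
    ∫ s in a..b, f' (X - c * (s - a)) = (f X - f (X - c * (b - a))) / c := by
  have hle : X - c * (b - a) ≤ X := by nlinarith only [hab, hc]
  have hII : IntervalIntegrable f' volume (X - c * (b - a)) X := by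
    rw [intervalIntegrable_iff_integrableOn_Ioo_of_le hle]
    exact hi.mono_set (Set.Ioo_subset_Ioo hX' hX)
  have hfun : (fun s => f' (X - c * (s - a))) = fun s => f' ((X + c * a) - c * s) := by
    funext s; congr 1; ring
  constructor
  · rw [hfun]
    have h1 := hII.comp_sub_left (X + c * a)
    have h2 := h1.comp_mul_left (c := c)
    have e1 : (X + c * a - (X - c * (b - a))) / c = b := by field_simp; ring
    have e2 : (X + c * a - X) / c = a := by field_simp; ring
    rw [e1, e2] at h2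
    exact h2.symm
  · rw [hfun, intervalIntegral.integral_comp_sub_mul f' hc.ne' (X + c * a)]
    have e1 : X + c * a - c * b = X - c * (b - a) := by ring
    have e2 : X + c * a - c * a = X := by ring
    rw [e1, e2, intervalIntegral.integral_eq_sub_of_hasDerivAt_of_le hle
      (hf.mono (Set.Icc_subset_Icc hX' hX))
      (fun x hx => hd x ⟨hX'.trans_lt hx.1, hx.2.trans_le hX⟩) hII]
    rw [smul_eq_mul]
    (clear * - hc; field_simp)

/-- the affine pieces of `Λ` -/
theorem fs_affine {K : ℕ} {m q : ℕ → ℝ} (hm : Expo K m) (hq : OPath K q) {l : ℕ} (hl : l ≤ K)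
    {s : ℝ} (h1 : q l ≤ s) (h2 : ∀ j, l < j → j ≤ K → s ≤ q j) :
    Lam K m q s = eq' K m q l - m (l + 1) * (s - q l) := by
  have e1 : ∑ j ∈ range (K + 1), (m (j + 1) - m j) * max (q j - s) 0
      = ∑ j ∈ Ico (l + 1) (K + 1), (m (j + 1) - m j) * (q j - s) := by
    rw [Finset.range_eq_Ico, ← Finset.sum_Ico_consecutive _ (Nat.zero_le (l + 1)) (by omega)]
    have z : ∑ j ∈ Ico 0 (l + 1), (m (j + 1) - m j) * max (q j - s) 0 = 0 := by
      refine Finset.sum_eq_zero fun j hj => ?_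
      rw [Finset.mem_Ico] at hj
      rw [max_eq_right, mul_zero]
      have := fs_mono hq j l (by omega) hl
      linarith only [h1, this]
    rw [z, zero_add]
    refine Finset.sum_congr rfl fun j hj => ?_
    rw [Finset.mem_Ico] at hj
    rw [max_eq_left]
    have := h2 j (by omega) (by omega)
    linarith only [this]
  have e2 : ∑ j ∈ Ico (l + 1) (K + 1), (m (j + 1) - m j) * (q j - s)
      = ∑ j ∈ Ico (l + 1) (K + 1), (m (j + 1) - m j) * q j - (1 - m (l + 1)) * s := by
    have : (1 - m (l + 1)) = ∑ j ∈ Ico (l + 1) (K + 1), (m (j + 1) - m j) := by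
      rw [fs_tele m (by omega), hm.mK]
    rw [this, Finset.sum_mul, ← Finset.sum_sub_distrib]
    exact Finset.sum_congr rfl fun j _ => by ring
  unfold Lam eq'
  rw [e1, e2]
  ring

/-- Traces as integrals. -/
theorem trf_eq_integral {K : ℕ} {m q : ℕ → ℝ} (hm : Expo K m) (hq : OPath K q) (h0 : q 0 = 0)
    {f f' : ℝ → ℝ} (hf : ContinuousOn f (Set.Icc 0 1)) (hf0 : f 0 = 0)
    (hd : ∀ x ∈ Set.Ioo (0 : ℝ) 1, HasDerivAt f (f' x) x)
    (hi : IntegrableOn f' (Set.Ioo 0 1)) :
    IntervalIntegrable (fun s => f' (Lam K m q s)) volume 0 1 ∧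
    trf K m f (eq' K m q) = ∫ s in (0 : ℝ)..1, f' (Lam K m q s) := by
  let Q : ℕ → ℝ := fun l => if l ≤ K then q l else 1
  let X : ℕ → ℝ := fun l => if l ≤ K then eq' K m q l else 0
  have Qle : ∀ l ≤ K, Q l = q l := fun l hl => by simp only [Q, if_pos hl]
  have QK : Q (K + 1) = 1 := by simp only [add_le_iff_nonpos_right, nonpos_iff_eq_zero, one_ne_zero, ↓reduceIte, Q]
  have Xle : ∀ l ≤ K, X l = eq' K m q l := fun l hl => by simp only [X, if_pos hl]
  have XK : X (K + 1) = 0 := by simp only [add_le_iff_nonpos_right, nonpos_iff_eq_zero, one_ne_zero, ↓reduceIte, X]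
  have hQm : ∀ l ≤ K, Q l ≤ Q (l + 1) := by
    intro l hl
    rw [Qle l hl]
    rcases Nat.lt_or_eq_of_le hl with h | h
    · rw [Qle (l + 1) (by omega)]; exact hq.mono l h
    · rw [h, QK]; exact hq.le
  have hstep : ∀ l ≤ K, X l - X (l + 1) = m (l + 1) * (Q (l + 1) - Q l) := by
    intro l hl
    rw [Qle l hl, Xle l hl]
    rcases Nat.lt_or_eq_of_le hl with h | h
    · rw [Qle (l + 1) (by omega), Xle (l + 1) (by omega)]
      unfold eq'
      rw [Finset.sum_eq_sum_Ico_succ_bot (show l + 1 < K + 1 by omega)]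
      ring
    · rw [h, QK, XK]
      unfold eq'
      rw [Finset.Ico_self, Finset.sum_empty, hm.mK]
      ring
  have hXanti : ∀ l ≤ K, X (l + 1) ≤ X l := by
    intro l hl
    have h1 := hstep l hl
    have h2 := mul_nonneg (fs_mpos hm l hl).le (sub_nonneg.2 (hQm l hl))
    linarith only [h1, h2]
  have hX0 : X 0 ≤ 1 := by
    rw [Xle 0 (Nat.zero_le _)]
    unfold eq'
    have h1 : 0 ≤ ∑ j ∈ Ico (0 + 1) (K + 1), (m (j + 1) - m j) * q j := by
      refine Finset.sum_nonneg fun j hj => ?_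
      rw [Finset.mem_Ico] at hj
      exact mul_nonneg (sub_nonneg.2 (hm.mono j (by omega))) (fs_nonneg hq (by omega))
    rw [h0]
    linarith only [h1]
  have hXle1 : ∀ l ≤ K + 1, X l ≤ 1 := by
    intro l
    induction l with
    | zero => intro _; exact hX0
    | succ l ih => intro hl; exact (hXanti l (by omega)).trans (ih (by omega))
  have hXnn : ∀ k ≤ K + 1, 0 ≤ X (K + 1 - k) := by
    intro k
    induction k with
    | zero => intro _; simp [XK]
    | succ k ih =>
      intro hk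
      have h1 := ih (by omega)
      have h2 := hXanti (K + 1 - (k + 1)) (by (clear * - hk; omega))
      have h3 : K + 1 - (k + 1) + 1 = K + 1 - k := by (clear * - hk; omega)
      rw [h3] at h2
      exact h1.trans h2
  have hXnn' : ∀ l ≤ K + 1, 0 ≤ X l := by
    intro l hl
    have := hXnn (K + 1 - l) (by omega)
    rwa [show K + 1 - (K + 1 - l) = l by omega] at this
  have hXn : ∀ l ≤ K, X l - m (l + 1) * (Q (l + 1) - Q l) = X (l + 1) := fun l hl => by
    linarith only [hstep l hl]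
  have hLam : ∀ l ≤ K, ∀ s, Q l ≤ s → s ≤ Q (l + 1) →
      Lam K m q s = X l - m (l + 1) * (s - Q l) := by
    intro l hl s hs1 hs2
    rw [Xle l hl, Qle l hl]
    rw [Qle l hl] at hs1
    refine fs_affine hm hq hl hs1 fun j hj1 hj2 => ?_
    rw [Qle (l + 1) (by omega)] at hs2
    exact hs2.trans (fs_mono hq (l + 1) j hj1 hj2)
  have piece : ∀ l < K + 1,
      IntervalIntegrable (fun s => f' (Lam K m q s)) volume (Q l) (Q (l + 1)) ∧
      ∫ s in (Q l)..(Q (l + 1)), f' (Lam K m q s) = (f (X l) - f (X (l + 1))) / m (l + 1) := by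
    intro l hl
    have hl' : l ≤ K := by omega
    obtain ⟨p1, p2⟩ := fs_piece hf hd hi (hQm l hl') (fs_mpos hm l hl') (hXle1 l (by omega))
      (by rw [hXn l hl']; exact hXnn' _ (by omega))
    have hcong : Set.EqOn (fun s => f' (X l - m (l + 1) * (s - Q l)))
        (fun s => f' (Lam K m q s)) (Set.uIcc (Q l) (Q (l + 1))) := by
      intro s hs
      rw [Set.uIcc_of_le (hQm l hl')] at hs
      show f' _ = f' _
      rw [hLam l hl' s hs.1 hs.2]
    refine ⟨p1.congr (hcong.mono Set.uIoc_subset_uIcc), ?_⟩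
    rw [← intervalIntegral.integral_congr hcong, p2, hXn l hl']
  have hQ0 : Q 0 = 0 := by rw [Qle 0 (Nat.zero_le _), h0]
  have hint := IntervalIntegrable.trans_iterate (a := Q) (n := K + 1) (fun k hk => (piece k hk).1)
  have hsum := intervalIntegral.sum_integral_adjacent_intervals (a := Q) (n := K + 1)
    (fun k hk => (piece k hk).1)
  rw [hQ0, QK] at hint hsum
  refine ⟨hint, ?_⟩
  rw [← hsum, Finset.sum_congr rfl (fun k hk => (piece k (Finset.mem_range.1 hk)).2),
    Finset.sum_range_succ]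
  unfold trf
  rw [XK, hf0, hm.mK, Xle K le_rfl, sub_zero, div_one, add_comm]
  congr 1
  refine Finset.sum_congr rfl fun i hi' => ?_
  rw [Finset.mem_range] at hi'
  rw [Xle i (by omega), Xle (i + 1) (by omega)]

theorem Lam_mono {K : ℕ} {m q r : ℕ → ℝ} (hm : Expo K m) (hq : OPath K q) (hr : OPath K r)
    (h : ∀ j ≤ K, 0 ≤ ∑ l ∈ Ico j (K + 1), (m (l + 1) - m l) * (r l - q l)) (s : ℝ) :
    Lam K m r s ≤ Lam K m q s := by
  unfold Lam
  suffices H : ∑ l ∈ range (K + 1), (m (l + 1) - m l) * max (q l - s) 0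
      ≤ ∑ l ∈ range (K + 1), (m (l + 1) - m l) * max (r l - s) 0 by linarith
  have hp : ∀ l ∈ range (K + 1), 0 ≤ m (l + 1) - m l := fun l hl => by
    rw [Finset.mem_range] at hl
    exact sub_nonneg.2 (hm.mono l (by omega))
  by_cases hex : ∃ j, j ≤ K ∧ s < q j
  · classical
    let j := Nat.find hex
    have hj : j ≤ K ∧ s < q j := Nat.find_spec hex
    have hlt : ∀ i < j, q i ≤ s := by
      intro i hi
      by_contra hc
      exact Nat.find_min hex hi ⟨by omega, not_le.1 hc⟩
    have e1 : ∑ l ∈ range (K + 1), (m (l + 1) - m l) * max (q l - s) 0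
        = ∑ l ∈ Ico j (K + 1), (m (l + 1) - m l) * (q l - s) := by
      rw [Finset.range_eq_Ico, ← Finset.sum_Ico_consecutive _ (Nat.zero_le j) (by omega)]
      have z : ∑ l ∈ Ico 0 j, (m (l + 1) - m l) * max (q l - s) 0 = 0 := by
        refine Finset.sum_eq_zero fun i hi => ?_
        rw [Finset.mem_Ico] at hi
        rw [max_eq_right, mul_zero]
        linarith only [hlt i hi.2]
      rw [z, zero_add]
      refine Finset.sum_congr rfl fun i hi => ?_
      rw [Finset.mem_Ico] at hi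
      rw [max_eq_left]
      have := fs_mono hq j i hi.1 (by omega)
      linarith only [hj, this]
    have e2 : ∑ l ∈ Ico j (K + 1), (m (l + 1) - m l) * (q l - s)
        ≤ ∑ l ∈ Ico j (K + 1), (m (l + 1) - m l) * (r l - s) := by
      have h1 := h j hj.1
      have h2 : ∑ l ∈ Ico j (K + 1), (m (l + 1) - m l) * (r l - q l)
          = ∑ l ∈ Ico j (K + 1), (m (l + 1) - m l) * (r l - s)
            - ∑ l ∈ Ico j (K + 1), (m (l + 1) - m l) * (q l - s) := by
        rw [← Finset.sum_sub_distrib]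
        exact Finset.sum_congr rfl fun i _ => by ring
      linarith only [h1, h2]
    have e3 : ∑ l ∈ Ico j (K + 1), (m (l + 1) - m l) * (r l - s)
        ≤ ∑ l ∈ Ico j (K + 1), (m (l + 1) - m l) * max (r l - s) 0 := by
      refine Finset.sum_le_sum fun i hi => ?_
      rw [Finset.mem_Ico] at hi
      exact mul_le_mul_of_nonneg_left (le_max_left _ _) (hp i (Finset.mem_range.2 hi.2))
    have e4 : ∑ l ∈ Ico j (K + 1), (m (l + 1) - m l) * max (r l - s) 0
        ≤ ∑ l ∈ range (K + 1), (m (l + 1) - m l) * max (r l - s) 0 := by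
      refine Finset.sum_le_sum_of_subset_of_nonneg ?_ ?_
      · intro i hi
        rw [Finset.mem_Ico] at hi
        exact Finset.mem_range.2 hi.2
      · intro i hi _
        exact mul_nonneg (hp i hi) (le_max_right _ _)
    rw [e1]
    exact e2.trans (e3.trans e4)
  · have z : ∑ l ∈ range (K + 1), (m (l + 1) - m l) * max (q l - s) 0 = 0 := by
      refine Finset.sum_eq_zero fun i hi => ?_
      rw [Finset.mem_range] at hi
      have : q i ≤ s := by
        by_contra hc
        exact hex ⟨i, by omega, not_le.1 hc⟩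
      rw [max_eq_right (by linarith only [this]), mul_zero]
    rw [z]
    exact Finset.sum_nonneg fun i hi => mul_nonneg (hp i hi) (le_max_right _ _)

theorem Lam_mem {K : ℕ} {m q : ℕ → ℝ} (hm : Expo K m) (hq : OPath K q) (h0 : q 0 = 0) {s : ℝ}
    (hs : s ∈ Set.Ioo (0 : ℝ) 1) : Lam K m q s ∈ Set.Ioo (0 : ℝ) 1 := by
  have hp : ∀ l ∈ range (K + 1), 0 ≤ m (l + 1) - m l := fun l hl => by
    rw [Finset.mem_range] at hl
    exact sub_nonneg.2 (hm.mono l (by omega))
  have hnn : 0 ≤ ∑ l ∈ range (K + 1), (m (l + 1) - m l) * max (q l - s) 0 :=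
    Finset.sum_nonneg fun i hi => mul_nonneg (hp i hi) (le_max_right _ _)
  have hle : ∑ l ∈ range (K + 1), (m (l + 1) - m l) * max (q l - s) 0
      ≤ (1 - m 1) * (1 - s) := by
    rw [Finset.range_eq_Ico, Finset.sum_eq_sum_Ico_succ_bot (Nat.succ_pos K), h0,
      max_eq_right (by linarith only [hs.1]), mul_zero, zero_add]
    have h1 : (1 - m 1) = ∑ j ∈ Ico (0 + 1) (K + 1), (m (j + 1) - m j) := by
      rw [fs_tele m (by omega), hm.mK]
    rw [h1, Finset.sum_mul]
    refine Finset.sum_le_sum fun i hi => ?_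
    rw [Finset.mem_Ico] at hi
    refine mul_le_mul_of_nonneg_left ?_ (hp i (Finset.mem_range.2 hi.2))
    refine max_le ?_ (by linarith only [hs.2])
    linarith only [fs_le_one hq (show i ≤ K by omega)]
  unfold Lam
  constructor
  · have := mul_pos hm.pos (sub_pos.2 hs.2)
    linarith
  · linarith only [hnn, hs.1]

/-- **Schur inequality**: if `∑_{l ≥ j} p_l (r_l - q_l) ≥ 0` for all `j` and `f'` is monotone, then
`tr f(r) ≤ tr f(q)`. -/
theorem schur {K : ℕ} {m q r : ℕ → ℝ} (hm : Expo K m) (hq : OPath K q) (hr : OPath K r)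
    (hq0 : q 0 = 0) (hr0 : r 0 = 0)
    (h : ∀ j ≤ K, 0 ≤ ∑ l ∈ Ico j (K + 1), (m (l + 1) - m l) * (r l - q l))
    {f f' : ℝ → ℝ} (hf : ContinuousOn f (Set.Icc 0 1)) (hf0 : f 0 = 0)
    (hd : ∀ x ∈ Set.Ioo (0 : ℝ) 1, HasDerivAt f (f' x) x)
    (hmono : MonotoneOn f' (Set.Ioo 0 1)) (hb : ∃ C, ∀ x ∈ Set.Ioo (0 : ℝ) 1, |f' x| ≤ C) :
    trf K m f (eq' K m r) ≤ trf K m f (eq' K m q) := by
  obtain ⟨C, hC⟩ := hb
  have hmeas : AEMeasurable f' (volume.restrict (Set.Ioo (0 : ℝ) 1)) :=
    aemeasurable_restrict_of_monotoneOn measurableSet_Ioo hmono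
  have hi : IntegrableOn f' (Set.Ioo (0 : ℝ) 1) := by
    have hfin : IsFiniteMeasure (volume.restrict (Set.Ioo (0 : ℝ) 1)) :=
      ⟨by rw [Measure.restrict_apply_univ]; simp only [Real.volume_Ioo, sub_zero, ENNReal.ofReal_one, ENNReal.one_lt_top]⟩
    refine Integrable.of_bound hmeas.aestronglyMeasurable C ?_
    refine (ae_restrict_iff' measurableSet_Ioo).2 (Filter.Eventually.of_forall fun x hx => ?_)
    rw [Real.norm_eq_abs]; exact hC x hx
  obtain ⟨i1, e1⟩ := trf_eq_integral hm hq hq0 hf hf0 hd hi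
  obtain ⟨i2, e2⟩ := trf_eq_integral hm hr hr0 hf hf0 hd hi
  rw [e1, e2]
  refine intervalIntegral.integral_mono_on_of_le_Ioo zero_le_one i2 i1 fun s hs => ?_
  exact hmono (Lam_mem hm hr hr0 hs) (Lam_mem hm hq hq0 hs) (Lam_mono hm hq hr h s)

end Vale.Agent.P166.F
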