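import Vale.Agent.P166.F.AlgDefs

/-! Task F-A1: eigenvalues of hierarchical matrices. -/

open Finset

namespace Vale.Agent.P166.F

variable {K : ℕ} {m : ℕ → ℝ}

theorem Expo.mono_chain (h : Expo K m) {i : ℕ} : ∀ j, i ≤ j → j ≤ K + 1 → m i ≤ m j := by
  intro j hij
  induction j, hij using Nat.le_induction with
  | base => intro _; exact le_rfl
  | succ j hij ih =>
    intro hj
    exact (ih (by omega)).trans (h.mono j (by omega))

theorem Expo.pos' (h : Expo K m) {l : ℕ} (hl : 1 ≤ l) (hl' : l ≤ K + 1) : 0 < m l :=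
  lt_of_lt_of_le h.pos (h.mono_chain l hl hl')

theorem Expo.le_one (h : Expo K m) {l : ℕ} (hl : l ≤ K + 1) : m l ≤ 1 := by
  rw [← h.mK]
  exact h.mono_chain (K + 1) hl le_rfl

theorem Expo.p_nonneg (h : Expo K m) {l : ℕ} (hl : l ≤ K) : 0 ≤ m (l + 1) - m l :=
  sub_nonneg.2 (h.mono l hl)

/-- downward induction on the levels -/
theorem alg1_down_ind {K : ℕ} {Q : ℕ → Prop} (h0 : Q K) (hs : ∀ l < K, Q (l + 1) → Q l) :
    ∀ l ≤ K, Q l := by
  have key : ∀ i, i ≤ K → Q (K - i) := by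
    intro i
    induction i with
    | zero => intro _; simpa using h0
    | succ i ih =>
      intro hi
      apply hs (K - (i + 1)) (by omega)
      have e : K - (i + 1) + 1 = K - i := by omega
      rw [e]
      exact ih (by omega)
  intro l hl
  have e : K - (K - l) = l := by omega
  have := key (K - l) (by omega)
  rwa [e] at this

/-- `λ_l - λ_{l+1} = m_{l+1} (e_{l+1} - e_l)`. -/
theorem Hm.ev_sub (h : Expo K m) (M : Hm) {l : ℕ} (hl : l < K) :
    Hm.ev K m M l - Hm.ev K m M (l + 1) = m (l + 1) * (M.e (l + 1) - M.e l) := by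
  unfold Hm.ev
  rw [Finset.sum_eq_sum_Ico_succ_bot (show l + 1 < K + 1 by omega)]
  ring

theorem Hm.ev_K (h : Expo K m) (M : Hm) : Hm.ev K m M K = M.d - M.e K := by
  unfold Hm.ev
  rw [h.mK, Finset.Ico_self, Finset.sum_empty]
  ring

theorem Hm.sum_split (M N : Hm) (s : Finset ℕ) (c c' : ℝ) :
    ∑ j ∈ s, (m (j + 1) - m j) * (M.e j * c + c' * N.e j) =
      (∑ j ∈ s, (m (j + 1) - m j) * M.e j) * c + c' * ∑ j ∈ s, (m (j + 1) - m j) * N.e j := by
  rw [Finset.sum_mul, Finset.mul_sum, ← Finset.sum_add_distrib]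
  refine Finset.sum_congr rfl fun j _ => ?_
  ring

theorem Hm.mul_e_sub (M N : Hm) {l : ℕ} (hl : l < K) :
    (Hm.mul K m M N).e (l + 1) - (Hm.mul K m M N).e l =
      Hm.ev K m M l * (N.e (l + 1) - N.e l) + Hm.ev K m N (l + 1) * (M.e (l + 1) - M.e l) := by
  simp only [Hm.mul, Hm.ev]
  rw [Hm.sum_split M N, Hm.sum_split M N, Finset.sum_range_succ,
    Finset.sum_eq_sum_Ico_succ_bot (show l + 1 < K + 1 by omega) (fun j => (m (j + 1) - m j) * M.e j),
    Finset.sum_eq_sum_Ico_succ_bot (show l + 1 < K + 1 by omega) (fun j => (m (j + 1) - m j) * N.e j)]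
  ring

/-- The eigenvalues are multiplicative. -/
theorem Hm.ev_mul (h : Expo K m) (M N : Hm) {l : ℕ} (hl : l ≤ K) :
    Hm.ev K m (Hm.mul K m M N) l = Hm.ev K m M l * Hm.ev K m N l := by
  revert l
  apply alg1_down_ind
  · rw [Hm.ev_K h, Hm.ev_K h, Hm.ev_K h]
    simp only [Hm.mul]
    rw [Finset.sum_range_succ, Finset.Ico_self, Finset.sum_empty, h.mK]
    ring
  · intro l hl ih
    have h1 := Hm.ev_sub h (Hm.mul K m M N) hl
    have h2 := Hm.ev_sub h M hl
    have h3 := Hm.ev_sub h N hl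
    rw [Hm.mul_e_sub M N hl, ih] at h1
    linear_combination h1 - Hm.ev K m M l * h3 - Hm.ev K m N (l + 1) * h2

theorem Hm.mul_zero_level (h : Expo K m) (M N : Hm) :
    (Hm.mul K m M N).e 0 = Hm.ev K m M 0 * N.e 0 + M.e 0 * Hm.ev K m N 0 := by
  simp only [Hm.mul, Hm.ev]
  rw [Hm.sum_split M N, Finset.range_zero, Finset.sum_empty, h.m0]
  ring

theorem Hm.ev_ofEv (h : Expo K m) (f : ℕ → ℝ) {l : ℕ} (hl : l ≤ K) :
    Hm.ev K m (Hm.ofEv K m f) l = f l := by
  revert l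
  apply alg1_down_ind
  · rw [Hm.ev_K h]
    simp only [Hm.ofEv]
    ring
  · intro l hl ih
    have h1 := Hm.ev_sub h (Hm.ofEv K m f) hl
    rw [ih] at h1
    simp only [Hm.ofEv, Finset.sum_range_succ] at h1 ⊢
    have hm : m (l + 1) ≠ 0 := (h.pos' (by omega) (by omega)).ne'
    have h2 : m (l + 1) * (∑ x ∈ range l, (f x - f (x + 1)) / m (x + 1) + (f l - f (l + 1)) /
        m (l + 1) - ∑ x ∈ range l, (f x - f (x + 1)) / m (x + 1)) = f l - f (l + 1) := by
      rw [add_sub_cancel_left]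
      field_simp
    rw [h2] at h1
    linarith

/-- A matrix with vanishing entry of level zero is determined by its eigenvalues. -/
theorem Hm.eq_ofEv (h : Expo K m) (M : Hm) (h0 : M.e 0 = 0) :
    M.d = (Hm.ofEv K m (Hm.ev K m M)).d ∧
      ∀ l ≤ K, M.e l = (Hm.ofEv K m (Hm.ev K m M)).e l := by
  have key : ∀ l ≤ K, M.e l = (Hm.ofEv K m (Hm.ev K m M)).e l := by
    intro l
    induction l with
    | zero => intro _; simp [Hm.ofEv, h0]
    | succ l ih =>
      intro hl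
      have h1 := Hm.ev_sub h M (show l < K by omega)
      have hm : m (l + 1) ≠ 0 := (h.pos' (by omega) (by omega)).ne'
      have h2 := ih (by omega)
      simp only [Hm.ofEv, Finset.sum_range_succ] at h2 ⊢
      rw [← h2, h1, mul_div_cancel_left₀ _ hm]
      ring
  refine ⟨?_, key⟩
  have h1 := Hm.ev_K h M
  have h2 := key K le_rfl
  simp only [Hm.ofEv] at h2 ⊢
  rw [← h2, h1]
  ring

theorem Hm.ext_ev (h : Expo K m) (M N : Hm) (hM : M.e 0 = 0) (hN : N.e 0 = 0)
    (hev : ∀ l ≤ K, Hm.ev K m M l = Hm.ev K m N l) : M.d = N.d ∧ ∀ l ≤ K, M.e l = N.e l := by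
  have h1 := Hm.eq_ofEv h M hM
  have h2 := Hm.eq_ofEv h N hN
  have h3 : ∀ l ≤ K, ∑ i ∈ range l, (Hm.ev K m M i - Hm.ev K m M (i + 1)) / m (i + 1) =
      ∑ i ∈ range l, (Hm.ev K m N i - Hm.ev K m N (i + 1)) / m (i + 1) := by
    intro l hl
    refine Finset.sum_congr rfl fun i hi => ?_
    have hi' := Finset.mem_range.1 hi
    rw [hev i (by omega), hev (i + 1) (by omega)]
  constructor
  · rw [h1.1, h2.1]
    simp only [Hm.ofEv]
    rw [h3 K le_rfl, hev K le_rfl]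
  · intro l hl
    rw [h1.2 l hl, h2.2 l hl]
    simp only [Hm.ofEv]
    exact h3 l hl

theorem Hm.abs_mul_d_le (h : Expo K m) (M N : Hm) {C : ℝ} (hd : |M.d| ≤ C)
    (he : ∀ l ≤ K, |M.e l| ≤ C) :
    |(Hm.mul K m M N).d| ≤ C * |N.d| + C * ∑ j ∈ range (K + 1), (m (j + 1) - m j) * |N.e j| := by
  simp only [Hm.mul]
  refine (abs_sub _ _).trans (add_le_add ?_ ?_)
  · rw [abs_mul]
    exact mul_le_mul_of_nonneg_right hd (abs_nonneg _)
  · rw [Finset.mul_sum]
    refine (Finset.abs_sum_le_sum_abs _ _).trans (Finset.sum_le_sum fun j hj => ?_)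
    have hj' := Finset.mem_range.1 hj
    have hp := h.p_nonneg (show j ≤ K by omega)
    rw [abs_mul, abs_mul, abs_of_nonneg hp]
    calc (m (j + 1) - m j) * (|M.e j| * |N.e j|) ≤ (m (j + 1) - m j) * (C * |N.e j|) :=
          mul_le_mul_of_nonneg_left
            (mul_le_mul_of_nonneg_right (he j (by omega)) (abs_nonneg _)) hp
      _ = C * ((m (j + 1) - m j) * |N.e j|) := by ring

theorem Hm.abs_mul_e_le (h : Expo K m) (M N : Hm) {C : ℝ} (hd : |M.d| ≤ C)
    (he : ∀ l ≤ K, |M.e l| ≤ C) {l : ℕ} (hl : l ≤ K) :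
    |(Hm.mul K m M N).e l| ≤ C * |N.d| + 2 * C * |N.e l| +
      C * ∑ j ∈ range (K + 1), (m (j + 1) - m j) * |N.e j| := by
  have hC : 0 ≤ C := (abs_nonneg _).trans hd
  have hp := h.p_nonneg hl
  have h1 : |M.d * N.e l| ≤ C * |N.e l| := by
    rw [abs_mul]
    exact mul_le_mul_of_nonneg_right hd (abs_nonneg _)
  have h2 : |M.e l * N.d| ≤ C * |N.d| := by
    rw [abs_mul]
    exact mul_le_mul_of_nonneg_right (he l hl) (abs_nonneg _)
  have h3 : |(2 * m (l + 1) - m l) * (M.e l * N.e l)| ≤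
      (2 * m (l + 1) - m l) * (C * |N.e l|) := by
    have h0 : 0 ≤ m (l + 1) := (h.pos' (by omega) (by omega)).le
    have h4 : 0 ≤ 2 * m (l + 1) - m l := by linarith
    rw [abs_mul, abs_mul, abs_of_nonneg h4]
    exact mul_le_mul_of_nonneg_left (mul_le_mul_of_nonneg_right (he l hl) (abs_nonneg _)) h4
  have h4 : |∑ j ∈ Ico (l + 1) (K + 1), (m (j + 1) - m j) * (M.e j * N.e l + M.e l * N.e j)| ≤
      (1 - m (l + 1)) * (C * |N.e l|) +
        C * ∑ j ∈ Ico (l + 1) (K + 1), (m (j + 1) - m j) * |N.e j| := by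
    have e1 : ∑ j ∈ Ico (l + 1) (K + 1), (m (j + 1) - m j) = 1 - m (l + 1) := by
      rw [Finset.sum_Ico_sub m (show l + 1 ≤ K + 1 by omega), h.mK]
    rw [← e1, Finset.sum_mul, Finset.mul_sum, ← Finset.sum_add_distrib]
    refine (Finset.abs_sum_le_sum_abs _ _).trans (Finset.sum_le_sum fun j hj => ?_)
    have hj' := Finset.mem_Ico.1 hj
    have hpj := h.p_nonneg (show j ≤ K by omega)
    rw [abs_mul, abs_of_nonneg hpj]
    have h5 : |M.e j * N.e l + M.e l * N.e j| ≤ C * |N.e l| + C * |N.e j| := by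
      refine (abs_add_le _ _).trans (add_le_add ?_ ?_)
      · rw [abs_mul]
        exact mul_le_mul_of_nonneg_right (he j (by omega)) (abs_nonneg _)
      · rw [abs_mul]
        exact mul_le_mul_of_nonneg_right (he l hl) (abs_nonneg _)
    calc (m (j + 1) - m j) * |M.e j * N.e l + M.e l * N.e j| ≤
          (m (j + 1) - m j) * (C * |N.e l| + C * |N.e j|) := mul_le_mul_of_nonneg_left h5 hpj
      _ = (m (j + 1) - m j) * (C * |N.e l|) + C * ((m (j + 1) - m j) * |N.e j|) := by ring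
  have h5 : |∑ j ∈ range l, (m (j + 1) - m j) * (M.e j * N.e j)| ≤
      C * ∑ j ∈ range l, (m (j + 1) - m j) * |N.e j| := by
    rw [Finset.mul_sum]
    refine (Finset.abs_sum_le_sum_abs _ _).trans (Finset.sum_le_sum fun j hj => ?_)
    have hj' := Finset.mem_range.1 hj
    have hpj := h.p_nonneg (show j ≤ K by omega)
    rw [abs_mul, abs_mul, abs_of_nonneg hpj]
    calc (m (j + 1) - m j) * (|M.e j| * |N.e j|) ≤ (m (j + 1) - m j) * (C * |N.e j|) :=
          mul_le_mul_of_nonneg_left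
            (mul_le_mul_of_nonneg_right (he j (by omega)) (abs_nonneg _)) hpj
      _ = C * ((m (j + 1) - m j) * |N.e j|) := by ring
  have h6 : ∑ j ∈ range (K + 1), (m (j + 1) - m j) * |N.e j| =
      ∑ j ∈ range l, (m (j + 1) - m j) * |N.e j| + ((m (l + 1) - m l) * |N.e l| +
        ∑ j ∈ Ico (l + 1) (K + 1), (m (j + 1) - m j) * |N.e j|) := by
    rw [← Finset.sum_range_add_sum_Ico (fun j => (m (j + 1) - m j) * |N.e j|)
      (show l ≤ K + 1 by omega), Finset.sum_eq_sum_Ico_succ_bot (show l < K + 1 by omega)]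
  have h7 : |(Hm.mul K m M N).e l| ≤ |M.d * N.e l| + |M.e l * N.d| +
      |(2 * m (l + 1) - m l) * (M.e l * N.e l)| +
      |∑ j ∈ Ico (l + 1) (K + 1), (m (j + 1) - m j) * (M.e j * N.e l + M.e l * N.e j)| +
      |∑ j ∈ range l, (m (j + 1) - m j) * (M.e j * N.e j)| := by
    simp only [Hm.mul]
    refine (abs_sub _ _).trans (add_le_add ?_ le_rfl)
    refine (abs_sub _ _).trans (add_le_add ?_ le_rfl)
    refine (abs_sub _ _).trans (add_le_add ?_ le_rfl)
    exact abs_add_le _ _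
  refine h7.trans ?_
  rw [h6]
  have h8 : C * |N.e l| + C * |N.d| + (2 * m (l + 1) - m l) * (C * |N.e l|) +
      ((1 - m (l + 1)) * (C * |N.e l|) +
        C * ∑ j ∈ Ico (l + 1) (K + 1), (m (j + 1) - m j) * |N.e j|) +
      C * ∑ j ∈ range l, (m (j + 1) - m j) * |N.e j| =
      C * |N.d| + 2 * C * |N.e l| +
      C * (∑ j ∈ range l, (m (j + 1) - m j) * |N.e j| + ((m (l + 1) - m l) * |N.e l| +
        ∑ j ∈ Ico (l + 1) (K + 1), (m (j + 1) - m j) * |N.e j|)) := by
    ring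
  rw [← h8]
  linarith

/-- `‖M N‖ ≤ 5 C ‖N‖` if the entries of `M` are at most `C`. -/
theorem Hm.nrm_mul_le (h : Expo K m) (M N : Hm) {C : ℝ} (hd : |M.d| ≤ C)
    (he : ∀ l ≤ K, |M.e l| ≤ C) : Hm.nrm K m (Hm.mul K m M N) ≤ 5 * C * Hm.nrm K m N := by
  have hC : 0 ≤ C := (abs_nonneg _).trans hd
  have h1 := Hm.abs_mul_d_le h M N hd he
  obtain ⟨S, hS⟩ : ∃ S, S = ∑ j ∈ range (K + 1), (m (j + 1) - m j) * |N.e j| := ⟨_, rfl⟩
  have hS0 : 0 ≤ S := by
    rw [hS]
    refine Finset.sum_nonneg fun j hj => ?_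
    have hj' := Finset.mem_range.1 hj
    exact mul_nonneg (h.p_nonneg (by omega)) (abs_nonneg _)
  have h2 : ∑ l ∈ range (K + 1), (m (l + 1) - m l) * |(Hm.mul K m M N).e l| ≤
      C * |N.d| + 2 * C * S + C * S := by
    have e1 : ∑ l ∈ range (K + 1), (m (l + 1) - m l) = 1 := by
      rw [Finset.sum_range_sub m, h.mK, h.m0, sub_zero]
    have e2 : C * |N.d| + 2 * C * S + C * S =
        ∑ l ∈ range (K + 1), (m (l + 1) - m l) * (C * |N.d| + 2 * C * |N.e l| + C * S) := by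
      have e3 : ∀ l ∈ range (K + 1), (m (l + 1) - m l) * (C * |N.d| + 2 * C * |N.e l| + C * S) =
          (m (l + 1) - m l) * (C * |N.d| + C * S) + 2 * C * ((m (l + 1) - m l) * |N.e l|) := by
        intro l _
        ring
      rw [Finset.sum_congr rfl e3, Finset.sum_add_distrib, ← Finset.sum_mul, ← Finset.mul_sum, e1,
        ← hS]
      ring
    rw [e2]
    refine Finset.sum_le_sum fun l hl => ?_
    have hl' := Finset.mem_range.1 hl
    have h3 := Hm.abs_mul_e_le h M N hd he (show l ≤ K by omega)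
    rw [← hS] at h3
    exact mul_le_mul_of_nonneg_left h3 (h.p_nonneg (by omega))
  rw [← hS] at h1
  unfold Hm.nrm
  rw [← hS]
  have h4 : 0 ≤ C * |N.d| := mul_nonneg hC (abs_nonneg _)
  have h5 : 0 ≤ C * S := mul_nonneg hC hS0
  have h6 : 5 * C * (|N.d| + S) = 5 * (C * |N.d|) + 5 * (C * S) := by ring
  rw [h6]
  linarith

theorem Hm.abs_ev_le (h : Expo K m) (M : Hm) {C : ℝ} (hd : |M.d| ≤ C)
    (he : ∀ l ≤ K, |M.e l| ≤ C) {l : ℕ} (hl : l ≤ K) : |Hm.ev K m M l| ≤ 2 * C := by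
  have hC : 0 ≤ C := (abs_nonneg _).trans hd
  have h0 : 0 ≤ m (l + 1) := (h.pos' (by omega) (by omega)).le
  have h1 : |m (l + 1) * M.e l| ≤ m (l + 1) * C := by
    rw [abs_mul, abs_of_nonneg h0]
    exact mul_le_mul_of_nonneg_left (he l hl) h0
  have h2 : |∑ j ∈ Ico (l + 1) (K + 1), (m (j + 1) - m j) * M.e j| ≤ (1 - m (l + 1)) * C := by
    have e1 : ∑ j ∈ Ico (l + 1) (K + 1), (m (j + 1) - m j) = 1 - m (l + 1) := by
      rw [Finset.sum_Ico_sub m (show l + 1 ≤ K + 1 by omega), h.mK]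
    rw [← e1, Finset.sum_mul]
    refine (Finset.abs_sum_le_sum_abs _ _).trans (Finset.sum_le_sum fun j hj => ?_)
    have hj' := Finset.mem_Ico.1 hj
    have hpj := h.p_nonneg (show j ≤ K by omega)
    rw [abs_mul, abs_of_nonneg hpj]
    exact mul_le_mul_of_nonneg_left (he j (by omega)) hpj
  unfold Hm.ev
  have h3 := abs_sub (M.d - m (l + 1) * M.e l) (∑ j ∈ Ico (l + 1) (K + 1), (m (j + 1) - m j) * M.e j)
  have h4 := abs_sub M.d (m (l + 1) * M.e l)
  linarith

theorem Hm.ev_lin {B : Type} [Fintype B] (a : B → ℝ) (R : B → Hm) (l : ℕ) :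
    Hm.ev K m (Hm.lin a R) l = ∑ b, a b * Hm.ev K m (R b) l := by
  simp only [Hm.ev, Hm.lin]
  have e1 : ∑ j ∈ Ico (l + 1) (K + 1), (m (j + 1) - m j) * ∑ b, a b * (R b).e j =
      ∑ b, a b * ∑ j ∈ Ico (l + 1) (K + 1), (m (j + 1) - m j) * (R b).e j := by
    simp only [Finset.mul_sum]
    rw [Finset.sum_comm]
    refine Finset.sum_congr rfl fun b _ => Finset.sum_congr rfl fun j _ => ?_
    ring
  rw [e1, Finset.mul_sum, ← Finset.sum_sub_distrib, ← Finset.sum_sub_distrib]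
  refine Finset.sum_congr rfl fun b _ => ?_
  ring

end Vale.Agent.P166.F
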